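import Vale.Agent.P235Z.Sum3

set_option linter.all false

/-!
# Planar graphs, bounded treewidth, and their clique sums over cliques of any size
-/

namespace Vale.Agent.P235Z

open SimpleGraph Vale.Agent.P235 Vale.Agent.P235.H134 Vale.Agent.P235.K5

theorem planar_k5 {W : Type} [Finite W] {B : SimpleGraph W} (h : Planar B) :
    ¬ IsMinor (⊤ : SimpleGraph (Fin 5)) B := by
  intro hm
  obtain ⟨r, hr, hr'⟩ := H205.planar W B h
  have h2 : IsMinor (grid r) (grid (r + 1)) := H786.gridMonoStmt r (r + 1) (by omega)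
  exact XC.H183.pk5 _ (grid (r + 1)) (grid_connected (by omega))
    ⟨_, ST.H172.plane_grid (by omega)⟩ (hm.trans (hr'.trans h2))

theorem final :
    (∃ C : ℝ, ∀ (V : Type) [Finite V] (G : SimpleGraph V), G.Connected → Planar G →
      DistortionLE G C) ∧
    (∀ k : ℕ, ∃ C : ℝ, ∀ (V : Type) [Finite V] (G : SimpleGraph V), G.Connected →
      TreewidthLE G k → DistortionLE G C) ∧
    (∃ A : ℝ, ∀ k : ℕ, ∃ C : ℝ,
      (∀ (m : ℕ) (V : Type) [Finite V] (G H : SimpleGraph V), G.Connected → G ≤ H →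
        CliqueSum m (fun _ B _ => Planar B ∨ ¬ IsMinor (⊤ : SimpleGraph (Fin 5)) B ∨
          TreewidthLE B k) H → DistortionLE G C) ∧
      ∀ (t : ℕ) (V : Type) [Finite V] (G : SimpleGraph V) (S : Set V), G.Connected →
        S.ncard ≤ t →
        (∀ u ∉ S, ∃ (m : ℕ) (H : SimpleGraph (compSet G S u)), G.induce (compSet G S u) ≤ H ∧
          CliqueSum m (fun _ B _ => Planar B ∨ ¬ IsMinor (⊤ : SimpleGraph (Fin 5)) B ∨
            TreewidthLE B k) H) →
        DistortionLE G (A * (C + Real.log (t + 2)))) := by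
  refine ⟨?_, H957.tw_bounded, ?_⟩
  · obtain ⟨C, -, h5, -⟩ := Vale.Agent.P235.H492.k5_mix K5.H56.k5free
    exact ⟨C, fun V _ G hG h => (h5 V G hG (planar_k5 h)).2⟩
  · obtain ⟨A, -, hA⟩ := apex_log'
    refine ⟨A, fun k => ?_⟩
    obtain ⟨K, hK, h⟩ := anySum k
    have key : ∀ (m : ℕ) (V : Type) [Finite V] (G H : SimpleGraph V), G.Connected → G ≤ H →
        CliqueSum m (fun _ B _ => Planar B ∨ ¬ IsMinor (⊤ : SimpleGraph (Fin 5)) B ∨
          TreewidthLE B k) H → DistortionLE G K := by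
      rintro m V _ G H hG hGH ⟨n, B, hB, hP⟩
      refine (h m V G H hGH hG ⟨n, B, hB, fun t ht => ?_⟩).2
      rcases hP t ht with h | h | h
      · exact Or.inl (planar_k5 h)
      · exact Or.inl h
      · exact Or.inr h
    refine ⟨K, key, fun t V _ G S hG hS hc => ?_⟩
    refine hA K (by linarith) t V G hG S hS fun u hu => ?_
    obtain ⟨m, H, h1, h2⟩ := hc u hu
    exact key m _ _ H (comp_connected hu) h1 h2

end Vale.Agent.P235Z
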