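import Vale.Agent.P235.K5.H56.SumZ
import Vale.Agent.P235.H749.Helly
import Vale.Agent.P235.XC.H183.Piece

set_option linter.all false

/-!
# Clique sums over cliques of any size, regrouped as sums over cliques with at most three vertices
-/

namespace Vale.Agent.P235Z

open SimpleGraph Vale.Agent.P235 Vale.Agent.P235.H134 Vale.Agent.P235.K5

variable {V : Type} {H : SimpleGraph V} {P : Set V → Prop}

/-- a clique -/
def Clq (H : SimpleGraph V) (C : Set V) : Prop := ∀ u ∈ C, ∀ v ∈ C, u ≠ v → H.Adj u v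

/-- no edge from `X ∖ Y` to `Y ∖ X` -/
def NoE (H : SimpleGraph V) (X Y : Set V) : Prop :=
  ∀ u ∈ X, u ∉ Y → ∀ v ∈ Y, v ∉ X → ¬ H.Adj u v

theorem NoE.symm {X Y : Set V} (h : NoE H X Y) : NoE H Y X :=
  fun u hu hu' v hv hv' ha => h v hv hv' u hu hu' ha.symm

theorem Clq.mono {C D : Set V} (h : Clq H D) (hCD : C ⊆ D) : Clq H C :=
  fun u hu v hv => h u (hCD hu) v (hCD hv)

/-- `W` is glued from pieces along cliques with at most three vertices, starting from `A` -/
inductive Sum3 (H : SimpleGraph V) (P : Set V → Prop) : Set V → Set V → Prop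
  | base {A : Set V} : P A → Sum3 H P A A
  | glue {W A B : Set V} : Sum3 H P W A → P B → (W ∩ B).ncard ≤ 3 → Clq H (W ∩ B) → NoE H W B →
      Sum3 H P (W ∪ B) A

theorem Sum3.sub {W A : Set V} (h : Sum3 H P W A) : A ⊆ W := by
  induction h with
  | base _ => exact fun _ h => h
  | glue _ _ _ _ _ ih => exact ih.trans Set.subset_union_left

theorem Sum3.root {W A : Set V} (h : Sum3 H P W A) : P A := by
  induction h with
  | base h => exact h
  | glue _ _ _ _ _ ih => exact ih

theorem Sum3.extend {W A U A0 : Set V} (h : Sum3 H P W A) (hU : Sum3 H P U A0)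
    (h1 : W ∩ U ⊆ A) (h2 : A ⊆ U) (h3 : NoE H W U) : Sum3 H P (U ∪ W) A0 := by
  induction h with
  | base _ =>
    rw [Set.union_eq_self_of_subset_right h2]
    exact hU
  | @glue W A B hW hB hc hq hn ih =>
    have hAW := hW.sub
    have hUB : ∀ x ∈ U, x ∈ B → x ∈ W := fun x hx hx' => hAW (h1 ⟨Or.inr hx', hx⟩)
    have ih' := ih (fun x hx => h1 ⟨Or.inl hx.1, hx.2⟩) h2 (by
      intro u hu hu' v hv hv'
      exact h3 u (Or.inl hu) hu' v hv (by
        rintro (h | h)
        · exact hv' h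
        · exact hv' (hUB v hv h)))
    have e : (U ∪ W) ∩ B = W ∩ B := by
      ext x
      constructor
      · rintro ⟨h | h, h'⟩
        · exact ⟨hUB x h h', h'⟩
        · exact ⟨h, h'⟩
      · rintro ⟨h, h'⟩
        exact ⟨Or.inr h, h'⟩
    have := Sum3.glue ih' hB (by rw [e]; exact hc) (by rw [e]; exact hq) (by
      intro u hu hu' v hv hv'
      have hvU : v ∉ U := fun h => hv' (Or.inl h)
      have hvW : v ∉ W := fun h => hv' (Or.inr h)
      by_cases huW : u ∈ W
      · exact hn u huW hu' v hv hvW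
      · have huU : u ∈ U := hu.resolve_right huW
        intro ha
        exact h3 v (Or.inr hv) hvU u huU (by
          rintro (h | h)
          · exact huW h
          · exact hu' h) ha.symm)
    rw [← Set.union_assoc]
    exact this

theorem Sum3.cat {W A W' A' : Set V} (h : Sum3 H P W A) (h' : Sum3 H P W' A')
    (h1 : W ∩ W' ⊆ A') (hc : (W ∩ W').ncard ≤ 3) (hq : Clq H (W ∩ W')) (hn : NoE H W W') :
    Sum3 H P (W ∪ W') A := by
  have hs := h'.sub
  have e : W ∩ A' = W ∩ W' := by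
    ext x
    exact ⟨fun hx => ⟨hx.1, hs hx.2⟩, fun hx => ⟨hx.1, h1 hx⟩⟩
  have g := Sum3.glue h h'.root (by rw [e]; exact hc) (by rw [e]; exact hq) (by
    intro u hu hu' v hv hv'
    exact hn u hu (fun h => hu' (h1 ⟨hu, h⟩)) v (hs hv) hv')
  have g2 := h'.extend g (by
    rintro x ⟨hx, hx' | hx'⟩
    · exact h1 ⟨hx', hx⟩
    · exact hx') Set.subset_union_right (by
    intro u hu hu' v hv hv'
    rcases hv with hv | hv
    · exact fun ha => hn v hv hv' u hu (fun h => hu' (Or.inl h)) ha.symm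
    · exact absurd (hs hv) hv')
  have e2 : W ∪ A' ∪ W' = W ∪ W' := by
    rw [Set.union_assoc, Set.union_eq_self_of_subset_left hs]
  rw [e2] at g2
  exact g2

theorem clq_side {W B C : Set V} (hn : NoE H W B) (hC : Clq H C) (hs : C ⊆ W ∪ B) :
    C ⊆ W ∨ C ⊆ B := by
  by_contra hne
  rw [not_or, Set.not_subset, Set.not_subset] at hne
  obtain ⟨⟨v, hv, hvW⟩, ⟨u, hu, huB⟩⟩ := hne
  have hvB : v ∈ B := (hs hv).resolve_left hvW
  have huW : u ∈ W := (hs hu).resolve_right huB
  have : u ≠ v := by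
    rintro rfl
    exact hvW huW
  exact hn u huW huB v hvB hvW (hC u hu v hv this)

theorem Sum3.reroot {W A : Set V} (h : Sum3 H P W A) :
    ∀ C : Set V, Clq H C → C ⊆ W → ∃ A', C ⊆ A' ∧ Sum3 H P W A' := by
  induction h with
  | base h => exact fun C _ hC => ⟨_, hC, Sum3.base h⟩
  | @glue W A B hW hB hc hq hn ih =>
    intro C hC hs
    rcases clq_side hn hC hs with h | h
    · obtain ⟨A', h1, h2⟩ := ih C hC h
      exact ⟨A', h1, Sum3.glue h2 hB hc hq hn⟩
    · obtain ⟨A', h1, h2⟩ := ih (W ∩ B) hq Set.inter_subset_left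
      refine ⟨B, h, ?_⟩
      rw [Set.union_comm]
      exact (Sum3.base hB).cat h2 (by rw [Set.inter_comm]; exact h1)
        (by rw [Set.inter_comm]; exact hc) (by rw [Set.inter_comm]; exact hq) hn.symm

/-- the output -/
theorem Sum3.rootedOn {Q : ∀ V : Type, SimpleGraph V → Prop} {W A : Set V}
    (h : Sum3 H (fun A => Q A (H.induce A)) W A) :
    H281.RootedOn 3 (fun V G _ => Q V G) H W ∅ := by
  induction h with
  | base h => exact H281.RootedOn.single (Set.empty_subset _) h
  | @glue W A B hW hB hc hq hn ih =>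
    exact H281.RootedOn.cat rfl hq hc hn ih
      (H281.RootedOn.single Set.inter_subset_right hB)

/-! ### treewidth -/

theorem tw_small [Finite V] {A : Set V} {k : ℕ} (h : A.ncard ≤ k + 1) :
    TreewidthLE (H.induce A) k := by
  classical
  have : Fintype A := Fintype.ofFinite A
  refine ⟨Unit, inferInstance, ⊥, fun _ => Finset.univ, ?_, fun v => ⟨(), Finset.mem_univ v⟩,
    fun u v _ => ⟨(), Finset.mem_univ u, Finset.mem_univ v⟩, fun v => ?_, fun _ => ?_⟩
  · refine ⟨⟨fun x y => ?_⟩, isAcyclic_bot⟩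
    rw [Subsingleton.elim x y]
  · intro x y
    rw [Subsingleton.elim x y]
  · rwa [Finset.card_univ, ← Nat.card_eq_fintype_card, Nat.card_coe_set_eq]

/-- treewidth at most `k` is closed under gluing along a clique -/
theorem tw_union [Finite V] {A B : Set V} {k : ℕ} (hA : TreewidthLE (H.induce A) k)
    (hB : TreewidthLE (H.induce B) k) (hq : Clq H (A ∩ B)) (hn : NoE H A B) :
    TreewidthLE (H.induce (A ∪ B)) k := by
  classical
  have : Fintype V := Fintype.ofFinite V
  obtain ⟨ι, hι, T, X, hT, hXv, hXe, hXc, hXk⟩ := hA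
  obtain ⟨κ, hκ, S, Y, hS, hYv, hYe, hYc, hYk⟩ := hB
  obtain ⟨i0, hi0⟩ := H749.helly hT (fun v : A => {t | v ∈ X t}) {v | v.1 ∈ B} hXc hXv (by
    intro u hu v hv huv
    exact hXe u v (hq u ⟨u.2, hu⟩ v ⟨v.2, hv⟩ fun h => huv (Subtype.ext h)))
  obtain ⟨j0, hj0⟩ := H749.helly hS (fun v : B => {t | v ∈ Y t}) {v | v.1 ∈ A} hYc hYv (by
    intro u hu v hv huv
    exact hYe u v (hq u ⟨hu, u.2⟩ v ⟨hv, v.2⟩ fun h => huv (Subtype.ext h)))
  let X' : ι → Finset ↥(A ∪ B) := fun i =>
    Finset.univ.filter fun z => ∃ h : z.1 ∈ A, (⟨z.1, h⟩ : A) ∈ X i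
  let Y' : κ → Finset ↥(A ∪ B) := fun j =>
    Finset.univ.filter fun z => ∃ h : z.1 ∈ B, (⟨z.1, h⟩ : B) ∈ Y j
  have mX : ∀ i z, z ∈ X' i ↔ ∃ h : z.1 ∈ A, (⟨z.1, h⟩ : A) ∈ X i := by
    intro i z
    simp only [X', Finset.mem_filter, Finset.mem_univ, true_and]
  have mY : ∀ j z, z ∈ Y' j ↔ ∃ h : z.1 ∈ B, (⟨z.1, h⟩ : B) ∈ Y j := by
    intro j z
    simp only [Y', Finset.mem_filter, Finset.mem_univ, true_and]
  refine ⟨ι ⊕ κ, inferInstance, (T ⊕g S) ⊔ edge (Sum.inl i0) (Sum.inr j0), Sum.elim X' Y',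
    ST.H742.tree_join hT hS, ?_, ?_, ?_, ?_⟩
  · rintro ⟨x, hx | hx⟩
    · obtain ⟨i, hi⟩ := hXv ⟨x, hx⟩
      exact ⟨Sum.inl i, (mX i _).2 ⟨hx, hi⟩⟩
    · obtain ⟨j, hj⟩ := hYv ⟨x, hx⟩
      exact ⟨Sum.inr j, (mY j _).2 ⟨hx, hj⟩⟩
  · rintro ⟨x, hx⟩ ⟨y, hy⟩ hxy
    have hxy' : H.Adj x y := hxy
    have : (x ∈ A ∧ y ∈ A) ∨ (x ∈ B ∧ y ∈ B) := by
      by_cases hxA : x ∈ A
      · by_cases hyA : y ∈ A
        · exact Or.inl ⟨hxA, hyA⟩
        · have hyB := hy.resolve_left hyA
          by_cases hxB : x ∈ B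
          · exact Or.inr ⟨hxB, hyB⟩
          · exact absurd hxy' (hn x hxA hxB y hyB hyA)
      · have hxB := hx.resolve_left hxA
        by_cases hyB : y ∈ B
        · exact Or.inr ⟨hxB, hyB⟩
        · have hyA := hy.resolve_right hyB
          exact absurd hxy'.symm (hn y hyA hyB x hxB hxA)
    rcases this with ⟨h1, h2⟩ | ⟨h1, h2⟩
    · obtain ⟨i, a, b⟩ := hXe ⟨x, h1⟩ ⟨y, h2⟩ hxy'
      exact ⟨Sum.inl i, (mX i _).2 ⟨h1, a⟩, (mX i _).2 ⟨h2, b⟩⟩
    · obtain ⟨j, a, b⟩ := hYe ⟨x, h1⟩ ⟨y, h2⟩ hxy'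
      exact ⟨Sum.inr j, (mY j _).2 ⟨h1, a⟩, (mY j _).2 ⟨h2, b⟩⟩
  · intro z
    have c1 : (T.induce {i | z ∈ X' i}).Preconnected := by
      by_cases h : z.1 ∈ A
      · have e : {i | z ∈ X' i} = {i | (⟨z.1, h⟩ : A) ∈ X i} := by
          ext i
          rw [Set.mem_setOf_eq, mX]
          exact ⟨fun ⟨_, a⟩ => a, fun a => ⟨h, a⟩⟩
        rw [e]
        exact hXc _
      · rintro ⟨i, hi⟩
        obtain ⟨h', -⟩ := (mX i z).1 hi
        exact absurd h' h
    have c2 : (S.induce {j | z ∈ Y' j}).Preconnected := by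
      by_cases h : z.1 ∈ B
      · have e : {j | z ∈ Y' j} = {j | (⟨z.1, h⟩ : B) ∈ Y j} := by
          ext j
          rw [Set.mem_setOf_eq, mY]
          exact ⟨fun ⟨_, a⟩ => a, fun a => ⟨h, a⟩⟩
        rw [e]
        exact hYc _
      · rintro ⟨j, hj⟩
        obtain ⟨h', -⟩ := (mY j z).1 hj
        exact absurd h' h
    have h4 := ST.H742.join_induce (i0 := i0) (j0 := j0) c1 c2 (by
      intro i hi j hj
      obtain ⟨a, -⟩ := (mX i z).1 hi
      obtain ⟨b, -⟩ := (mY j z).1 hj
      exact ⟨(mX i0 z).2 ⟨a, hi0 ⟨z.1, a⟩ b⟩, (mY j0 z).2 ⟨b, hj0 ⟨z.1, b⟩ a⟩⟩)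
    have e : {t' : ι ⊕ κ | z ∈ Sum.elim X' Y' t'} =
        {w | Sum.elim (fun i => i ∈ {i | z ∈ X' i}) (fun j => j ∈ {j | z ∈ Y' j}) w} := by
      ext (i | j) <;> rfl
    rw [e]
    exact h4
  · rintro (i | j)
    · refine le_trans ?_ (hXk i)
      show (X' i).card ≤ (X i).card
      rw [← Finset.card_image_of_injective (X' i) Subtype.val_injective,
        ← Finset.card_image_of_injective (X i) Subtype.val_injective]
      refine Finset.card_le_card fun x hx => ?_
      obtain ⟨z, hz, rfl⟩ := Finset.mem_image.1 hx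
      obtain ⟨a, b⟩ := (mX i z).1 hz
      exact Finset.mem_image.2 ⟨_, b, rfl⟩
    · refine le_trans ?_ (hYk j)
      show (Y' j).card ≤ (Y j).card
      rw [← Finset.card_image_of_injective (Y' j) Subtype.val_injective,
        ← Finset.card_image_of_injective (Y j) Subtype.val_injective]
      refine Finset.card_le_card fun x hx => ?_
      obtain ⟨z, hz, rfl⟩ := Finset.mem_image.1 hx
      obtain ⟨a, b⟩ := (mY j z).1 hz
      exact Finset.mem_image.2 ⟨_, b, rfl⟩

/-! ### graphs without a `K₅` minor -/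

/-- branch sets inside `A` give a minor of the induced subgraph -/
theorem minor_in {κ : Type} {K : SimpleGraph κ} {A : Set V} (μ : κ → Set V) (h0 : ∀ a, μ a ⊆ A)
    (h1 : ∀ a, (H.induce (μ a)).Connected) (h2 : ∀ a b, a ≠ b → Disjoint (μ a) (μ b))
    (h3 : ∀ a b, K.Adj a b → ∃ x ∈ μ a, ∃ y ∈ μ b, H.Adj x y) : IsMinor K (H.induce A) := by
  refine ⟨fun a => {z | z.1 ∈ μ a}, fun a => ?_, fun a b hab => ?_, fun a b hab => ?_⟩
  · let f : H.induce (μ a) →g (H.induce A).induce {z | z.1 ∈ μ a} :=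
      { toFun := fun x => ⟨⟨x.1, h0 a x.2⟩, x.2⟩
        map_rel' := fun {x y} h => h }
    exact (h1 a).map f fun z => ⟨⟨z.1.1, z.2⟩, rfl⟩
  · rw [Set.disjoint_left]
    intro z hz hz'
    exact Set.disjoint_left.1 (h2 a b hab) hz hz'
  · obtain ⟨x, hx, y, hy, hxy⟩ := h3 a b hab
    exact ⟨⟨x, h0 a hx⟩, hx, ⟨y, h0 b hy⟩, hy, hxy⟩

theorem conn_single (v : V) : (H.induce ({v} : Set V)).Connected := by
  have : Nonempty ({v} : Set V) := ⟨⟨v, rfl⟩⟩
  refine ⟨fun x y => ?_⟩
  have : x = y := Subtype.ext (x.2.trans y.2.symm)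
  rw [this]

/-- four vertices of a clique and a connected set joined to all of them: a `K₅` minor -/
theorem k5_of {A N K : Set V} (hN : N ⊆ A) (hK : K ⊆ A) (hq : Clq H N) (h4 : 4 ≤ N.ncard)
    (hd : Disjoint K N) (hc : (H.induce K).Connected) (ha : ∀ c ∈ N, ∃ v ∈ K, H.Adj v c) :
    IsMinor (⊤ : SimpleGraph (Fin 5)) (H.induce A) := by
  classical
  obtain ⟨N', hN', h4'⟩ := Set.exists_subset_card_eq h4
  have hfin : N'.Finite := Set.finite_of_ncard_ne_zero (by omega)
  have : Fintype N' := hfin.fintype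
  have hcard : Fintype.card N' = 4 := by
    rw [← Nat.card_eq_fintype_card, Nat.card_coe_set_eq, h4']
  let e : Fin 4 ≃ N' := (Fintype.equivFinOfCardEq hcard).symm
  let c : Fin 4 → V := fun i => (e i).1
  have cN : ∀ i, c i ∈ N := fun i => hN' (e i).2
  have cinj : Function.Injective c := fun i j h => e.injective (Subtype.ext h)
  refine minor_in (fun a => Fin.cases K (fun i => {c i}) a) ?_ ?_ ?_ ?_
  · intro a
    refine Fin.cases ?_ (fun i => ?_) a
    · exact hK
    · exact Set.singleton_subset_iff.2 (hN (cN i))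
  · intro a
    refine Fin.cases ?_ (fun i => ?_) a
    · exact hc
    · exact conn_single _
  · intro a b
    refine Fin.cases ?_ (fun i => ?_) a <;> refine Fin.cases ?_ (fun j => ?_) b
    · exact fun h => absurd rfl h
    · exact fun _ => hd.mono_right (Set.singleton_subset_iff.2 (cN j))
    · exact fun _ => (hd.mono_right (Set.singleton_subset_iff.2 (cN i))).symm
    · intro h
      exact Set.disjoint_singleton.2 fun h' => h (congrArg Fin.succ (cinj h'))
  · intro a b
    refine Fin.cases ?_ (fun i => ?_) a <;> refine Fin.cases ?_ (fun j => ?_) b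
    · exact fun h => absurd h (SimpleGraph.irrefl _)
    · intro _
      obtain ⟨v, hv, hv'⟩ := ha (c j) (cN j)
      exact ⟨v, hv, c j, rfl, hv'⟩
    · intro _
      obtain ⟨v, hv, hv'⟩ := ha (c i) (cN i)
      exact ⟨c i, rfl, v, hv, hv'.symm⟩
    · intro h
      refine ⟨c i, rfl, c j, rfl, hq _ (cN i) _ (cN j) fun h' => h.ne (by rw [cinj h'])⟩

/-- the pieces -/
def Pc (k : ℕ) (V : Type) (G : SimpleGraph V) : Prop :=
  ¬ IsMinor (⊤ : SimpleGraph (Fin 5)) G ∨ TreewidthLE G k

/-- a piece is a sum whose first piece contains a given large clique and has small treewidth -/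
theorem split [Finite V] {k : ℕ} (hk : 3 ≤ k) {A C : Set V} (hA : Pc k A (H.induce A))
    (hq : Clq H C) (hCA : C ⊆ A) (h4 : 4 ≤ C.ncard) :
    ∃ A0, C ⊆ A0 ∧ TreewidthLE (H.induce A0) k ∧
      Sum3 H (fun A => Pc k A (H.induce A)) A A0 := by
  classical
  rcases hA with hA | hA
  swap
  · exact ⟨A, hCA, hA, Sum3.base (Or.inr hA)⟩
  have hC4 : C.ncard ≤ 4 := by
    by_contra h5
    have hne : C.Nonempty := Set.nonempty_of_ncard_ne_zero (by omega)
    obtain ⟨v, hv⟩ := hne
    refine hA (k5_of (N := C \ {v}) (K := {v}) (Set.diff_subset.trans hCA)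
      (Set.singleton_subset_iff.2 (hCA hv)) (hq.mono Set.diff_subset) ?_ Set.disjoint_sdiff_right
      (conn_single v) ?_)
    · rw [Set.ncard_diff_singleton_of_mem hv]
      omega
    · intro c hc
      exact ⟨v, rfl, hq v hv c hc.1 fun h => hc.2 h.symm⟩
  have hCt : TreewidthLE (H.induce C) k := tw_small (by omega)
  refine ⟨C, subset_rfl, hCt, ?_⟩
  have key : ∀ m : ℕ, ∀ D : Set V, D.ncard ≤ m → D ⊆ A \ C →
      (∀ u ∈ D, ∀ v ∈ A \ C, H.Adj u v → v ∈ D) →
      Sum3 H (fun A => Pc k A (H.induce A)) (C ∪ D) C := by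
    intro m
    induction m with
    | zero =>
      intro D hD _ _
      have : D = ∅ := (Set.ncard_eq_zero D.toFinite).1 (by omega)
      rw [this, Set.union_empty]
      exact Sum3.base (Or.inr hCt)
    | succ m ih =>
      intro D hD hDA hcl
      rcases D.eq_empty_or_nonempty with rfl | ⟨u, hu⟩
      · rw [Set.union_empty]
        exact Sum3.base (Or.inr hCt)
      set X : Set V := (A \ C)ᶜ with hX
      have huX : u ∉ X := fun h => h (hDA hu)
      set K := compSet H X u with hK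
      have KA : ∀ v ∈ K, v ∈ A \ C := fun v hv => by
        have := ReachOff.right hv
        by_contra h
        exact this h
      have Kcl : ∀ v ∈ K, ∀ w ∈ A \ C, H.Adj v w → w ∈ K := fun v hv w hw ha =>
        ReachOff.trans hv (ReachOff.adj (ReachOff.right hv) (fun h => h hw) ha)
      have KD : K ⊆ D := by
        rintro v ⟨p, hp⟩
        have : ∀ (a b : V) (p : H.Walk a b), a ∈ D → (∀ c ∈ p.support, c ∉ X) → b ∈ D := by
          intro a b p
          induction p with
          | nil => exact fun h _ => h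
          | cons hab q ihq =>
            intro ha hs
            refine ihq (hcl _ ha _ ?_ hab) fun c hc => hs c (by simp [hc])
            have := hs _ (by rw [Walk.support_cons]; exact List.mem_cons_of_mem _ q.start_mem_support)
            by_contra h
            exact this h
        exact this u v p hu hp
      have uK : u ∈ K := ReachOff.refl huX
      have hlt : (D \ K).ncard ≤ m := by
        have : (D \ K).ncard < D.ncard :=
          Set.ncard_lt_ncard ⟨Set.diff_subset, fun h => (h hu).2 uK⟩ D.toFinite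
        omega
      have ih' := ih (D \ K) hlt (Set.diff_subset.trans hDA) (by
        intro a ha v hv hav
        exact ⟨hcl a ha.1 v hv hav, fun h => ha.2 (Kcl v h a (hDA ha.1) hav.symm)⟩)
      set N : Set V := {c | c ∈ C ∧ ∃ v ∈ K, H.Adj v c} with hN
      have NC : N ⊆ C := fun c hc => hc.1
      have hN3 : N.ncard ≤ 3 := by
        by_contra h
        refine hA (k5_of (N := N) (K := K) (NC.trans hCA) (fun v hv => (KA v hv).1) (hq.mono NC)
          (by omega) ?_ (comp_connected huX) fun c hc => hc.2)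
        rw [Set.disjoint_left]
        exact fun v hv hv' => (KA v hv).2 (NC hv')
      have e : (C ∪ D \ K) ∩ (K ∪ N) = N := by
        ext x
        constructor
        · rintro ⟨h | h, h' | h'⟩
          · exact absurd h (KA x h').2
          · exact h'
          · exact absurd h' h.2
          · exact h'
        · exact fun h => ⟨Or.inl (NC h), Or.inr h⟩
      have hB : Pc k ↥(K ∪ N) (H.induce (K ∪ N)) := Or.inl fun h => hA (H803.minor_mono (by
        rintro x (h | h)
        · exact (KA x h).1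
        · exact hCA (NC h)) h)
      have g := Sum3.glue ih' hB (by rw [e]; exact hN3) (by rw [e]; exact hq.mono NC) (by
        intro a ha ha' v hv hv' hav
        have vK : v ∈ K := hv.resolve_right fun h => hv' (Or.inl (NC h))
        rcases ha with ha | ha
        · exact ha' (Or.inr ⟨ha, v, vK, hav.symm⟩)
        · exact ha.2 (Kcl v vK a (hDA ha.1) hav.symm))
      have e2 : C ∪ D \ K ∪ (K ∪ N) = C ∪ D := by
        ext x
        constructor
        · rintro ((h | h) | h | h)
          · exact Or.inl h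
          · exact Or.inr h.1
          · exact Or.inr (KD h)
          · exact Or.inl (NC h)
        · rintro (h | h)
          · exact Or.inl (Or.inl h)
          · by_cases hx : x ∈ K
            · exact Or.inr (Or.inl hx)
            · exact Or.inl (Or.inr ⟨h, hx⟩)
      rw [e2] at g
      exact g
  have := key _ (A \ C) le_rfl subset_rfl fun _ _ v hv _ => hv
  rwa [Set.union_diff_cancel hCA] at this

/-- **Regrouping.** -/
theorem regroup [Finite V] {k m n : ℕ} (hk : 3 ≤ k) {B : ℕ → Set V} (h : Glued m H n B)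
    (hP : ∀ t < n, Pc k (B t) (H.induce (B t))) :
    ∀ j, 0 < j → j ≤ n → ∃ A, Sum3 H (fun A => Pc k A (H.induce A)) (Bef B j) A := by
  intro j
  induction j with
  | zero => intro h0; omega
  | succ j ih =>
    intro _ hj
    have eB : Bef B (j + 1) = Bef B j ∪ B j := by
      ext x
      constructor
      · rintro ⟨s, hs, hx⟩
        by_cases hsj : s = j
        · exact Or.inr (hsj ▸ hx)
        · exact Or.inl ⟨s, by omega, hx⟩
      · rintro (⟨s, hs, hx⟩ | hx)
        · exact ⟨s, by omega, hx⟩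
        · exact ⟨j, by omega, hx⟩
    rcases Nat.eq_zero_or_pos j with rfl | h0
    · have : Bef B 0 = ∅ := by
        ext x
        exact ⟨fun ⟨s, hs, _⟩ => absurd hs (by omega), fun h => h.elim⟩
      rw [eB, this, Set.empty_union]
      exact ⟨_, Sum3.base (hP 0 (by omega))⟩
    obtain ⟨A, hA⟩ := ih h0 (by omega)
    have eR : Bef B j ∩ B j = Adh B j := by
      ext x
      exact ⟨fun h => ⟨h.2, h.1⟩, fun h => ⟨h.2, h.1⟩⟩
    have hq : Clq H (Bef B j ∩ B j) := by
      rw [eR]
      exact h.clique j (by omega)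
    have hn : NoE H (Bef B j) (B j) := fun u hu hu' v hv hv' ha =>
      h.sep j (by omega) v u hv hv' hu hu' ha.symm
    rw [eB]
    by_cases h3 : (Bef B j ∩ B j).ncard ≤ 3
    · exact ⟨A, Sum3.glue hA (hP j (by omega)) h3 hq hn⟩
    set W := Bef B j
    set R := W ∩ B j
    obtain ⟨A1, r1, s1⟩ := hA.reroot R hq Set.inter_subset_left
    obtain ⟨A1', r1', t1, s1'⟩ := split hk s1.root hq r1 (by omega)
    obtain ⟨A2, r2, t2, s2⟩ := split hk (hP j (by omega)) hq Set.inter_subset_right (by omega)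
    have s3 := s1.extend s1' Set.inter_subset_right subset_rfl
      fun u _ _ v hv hv' => absurd (s1.sub hv) hv'
    rw [Set.union_eq_self_of_subset_left s1.sub] at s3
    have u1 := s3.sub
    have u2 := s2.sub
    have eI : A1' ∩ A2 = R := by
      ext x
      exact ⟨fun h => ⟨u1 h.1, u2 h.2⟩, fun h => ⟨r1' h, r2 h⟩⟩
    have tU : TreewidthLE (H.induce (A1' ∪ A2)) k := tw_union t1 t2 (by rw [eI]; exact hq) (by
      intro u hu hu' v hv hv'
      exact hn u (u1 hu) (fun h => hu' (r2 ⟨u1 hu, h⟩)) v (u2 hv) fun h => hv' (r1' ⟨h, u2 hv⟩))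
    have s4 := s3.extend (U := A1' ∪ A2) (Sum3.base (Or.inr tU)) (by
      rintro x ⟨hx, h | h⟩
      · exact h
      · exact r1' ⟨hx, u2 h⟩) Set.subset_union_left (by
      intro u hu hu' v hv hv'
      have hv2 : v ∈ A2 := hv.resolve_left fun h => hv' (u1 h)
      exact hn u hu (fun h => hu' (Or.inr (r2 ⟨hu, h⟩))) v (u2 hv2) hv')
    have s5 := s2.extend s4 (by
      rintro x ⟨hx, (h | h) | h⟩
      · exact r2 ⟨u1 h, hx⟩
      · exact h
      · exact r2 ⟨h, hx⟩) (fun x hx => Or.inl (Or.inr hx)) (by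
      intro u hu hu' v hv hv' ha
      have hvW : v ∈ W := by
        rcases hv with (h | h) | h
        · exact u1 h
        · exact absurd (u2 h) hv'
        · exact h
      exact hn v hvW hv' u hu (fun h => hu' (Or.inr h)) ha.symm)
    have e : A1' ∪ A2 ∪ W ∪ B j = W ∪ B j := by
      ext x
      constructor
      · rintro (((h | h) | h) | h)
        · exact Or.inl (u1 h)
        · exact Or.inr (u2 h)
        · exact Or.inl h
        · exact Or.inr h
      · rintro (h | h)
        · exact Or.inl (Or.inr h)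
        · exact Or.inr h
    rw [e] at s5
    exact ⟨_, s5⟩

/-- **Sums over cliques of any size.** -/
theorem anySum (k : ℕ) : ∃ K : ℝ, 1 ≤ K ∧ ∀ (m : ℕ) (V : Type) [Finite V] (G H : SimpleGraph V),
    G ≤ H → G.Connected →
    CliqueSum m (fun W B _ => ¬ IsMinor (⊤ : SimpleGraph (Fin 5)) B ∨ TreewidthLE B k) H →
    EdgeIso G K ∧ DistortionLE G K := by
  obtain ⟨C5, hC5, h5, -⟩ := Vale.Agent.P235.H492.k5_mix K5.H56.k5free
  obtain ⟨Ct, -, ht⟩ := ST.H742.tw_edgeIso (max k 3)
  obtain ⟨K, hK, hK'⟩ := EX.H719.edgeIso_sum (max C5 Ct) (hC5.trans (le_max_left _ _))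
  refine ⟨K, hK, fun m V _ G H hGH hG hS => ?_⟩
  obtain ⟨n, B, hB, hP⟩ := hS
  have hP' : ∀ t < n, Pc (max k 3) (B t) (H.induce (B t)) := fun t ht =>
    (hP t ht).imp id fun h => XC.H183.tw_mono h (le_max_left _ _)
  obtain ⟨v⟩ := hG.nonempty
  obtain ⟨t, ht', -⟩ := hB.cover v
  obtain ⟨A, hA⟩ := regroup (le_max_right k 3) hB hP' n (by omega) le_rfl
  have e : Bef B n = Set.univ := Set.eq_univ_of_forall fun x => by
    obtain ⟨s, hs, hx⟩ := hB.cover x
    exact ⟨s, hs, hx⟩
  rw [e] at hA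
  obtain ⟨H', hH', hS'⟩ := H281.Rooted.cliqueSum (k := 3) (G := H) (R := ∅)
    (P := fun V G _ => Pc (max k 3) V G) hA.rootedOn fun _ _ _ h => h
  have hGH' : G ≤ H' := hGH.trans hH'
  obtain ⟨n', B', g', p'⟩ := H266.cliqueSum_conn (hG.mono hGH').preconnected hS'
  refine hK' V G H' hGH' hG ⟨n', B', g', fun s hs => ⟨(p' s hs).1, ?_⟩⟩
  rcases (p' s hs).2 with h | h
  · exact ST.H626.EdgeIso.mono' (h5 _ _ (p' s hs).1 h).1 (le_max_left _ _)
  · exact ST.H626.EdgeIso.mono' (ht _ _ (p' s hs).1 h) (le_max_right _ _)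

end Vale.Agent.P235Z
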